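import Vale.Agent.H86.KTV.FibreModel
import Vale.Agent.H7.KTV.JSFibre

/-!
P335, simple-graph split, ROW R2 (board 232): the Johnson surplus inequality on the pair
fibres, `js` and `js_weak`, assembled from the fibre parametrisation `fibre_model`
(this seat) and the sums bookkeeping `js_of_fibre` / `js_weak_of_fibre` (seat 7).
-/

namespace Vale.Agent.H86

open Finset SimpleGraph
open scoped Classical
open Vale.Agent.H90 (dot avgRel)
open Vale.Agent.H40.KTV

variable {V : Type} [Fintype V]

theorem js (u v : V) (huv : u ≠ v) (f : SimpleGraph V → ℝ) :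
    (∑ w, ∑ z, (if Dist4 u v w z then XT u v w z f else 0))
        + 2 * dot (QP u v f) (QP u v f)
      ≤ (1 / 4 : ℝ) * ∑ w, ∑ z, (if Dist4 u v w z then DT u v w z f else 0) :=
  Vale.Agent.H7.js_of_fibre (fun u v huv G0 => fibre_model u v huv G0) u v huv f

theorem js_weak (u v : V) (huv : u ≠ v) (f : SimpleGraph V → ℝ) :
    (∑ w, ∑ z, (if Dist4 u v w z then XT u v w z f else 0))
      ≤ (1 / 4 : ℝ) * ∑ w, ∑ z, (if Dist4 u v w z then DT u v w z f else 0) :=
  Vale.Agent.H7.js_weak_of_fibre (fun u v huv G0 => fibre_model u v huv G0) u v huv f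

end Vale.Agent.H86
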